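import Vale.Agent.P076.H7.Sum3
import Vale.Agent.P076.X.Ov
import Vale.Agent.P076.X.Rep

/-! # P076, X.SUM: `StSumP` from `StTelA` and `StAmp` only (helper7) -/

namespace Vale.Agent.P076.H7

open Vale.Agent.P076.X

theorem stSumP_of (hT : StTelA) (hA : StAmp) : StSumP := stSumP hT hA stRep stOv

end Vale.Agent.P076.H7
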