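import Vale.Agent.P076.H7.Sum1

/-! # P076, X.SUM: cost of pruning for the quartic functional (helper7) -/

open MeasureTheory

namespace Vale.Agent.P076.H7

open Vale.Agent.P076.X

lemma gauss_int {s : ℝ} (hs : 0 < s) (d : ℝ) :
    Integrable (fun y : ℝ => Real.exp (-((y - d) ^ 2 / s ^ 2))) ∧
    ∫ y : ℝ, Real.exp (-((y - d) ^ 2 / s ^ 2)) = s * Real.sqrt Real.pi := by
  have e : (fun y : ℝ => Real.exp (-((y - d) ^ 2 / s ^ 2))) =
      fun y => (fun x => Real.exp (-(s ^ 2)⁻¹ * x ^ 2)) (y - d) := by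
    funext y; congr 1; rw [div_eq_mul_inv]; ring
  have hp : 0 < (s ^ 2)⁻¹ := by positivity
  refine ⟨?_, ?_⟩
  · rw [e]; exact (integrable_exp_neg_mul_sq hp).comp_sub_right d
  · rw [e, integral_sub_right_eq_self (fun x => Real.exp (-(s ^ 2)⁻¹ * x ^ 2)) d,
      integral_gaussian]
    rw [div_inv_eq_mul, mul_comm, Real.sqrt_mul (by positivity), Real.sqrt_sq hs.le]

lemma gauss_shear {s : ℝ} (hs : 0 < s) (A c η : ℝ) :
    Integrable (fun p : ℝ × ℝ => Real.exp (-((p.1 - (A + c * (p.2 - η))) ^ 2 / s ^ 2)) *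
      Real.exp (-((p.2 - η) ^ 2 / (2 / s) ^ 2))) ∧
    ∫ p : ℝ × ℝ, Real.exp (-((p.1 - (A + c * (p.2 - η))) ^ 2 / s ^ 2)) *
      Real.exp (-((p.2 - η) ^ 2 / (2 / s) ^ 2)) = 2 * Real.pi := by
  have h2 : (0:ℝ) < 2 / s := by positivity
  have hc : Continuous (fun p : ℝ × ℝ => Real.exp (-((p.1 - (A + c * (p.2 - η))) ^ 2 / s ^ 2)) *
      Real.exp (-((p.2 - η) ^ 2 / (2 / s) ^ 2))) := by fun_prop
  have hv : ∀ y : ℝ, ∫ x : ℝ, Real.exp (-((x - (A + c * (y - η))) ^ 2 / s ^ 2)) *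
      Real.exp (-((y - η) ^ 2 / (2 / s) ^ 2)) =
      s * Real.sqrt Real.pi * Real.exp (-((y - η) ^ 2 / (2 / s) ^ 2)) := fun y => by
    rw [integral_mul_const, (gauss_int hs _).2]
  have hi : Integrable (fun p : ℝ × ℝ => Real.exp (-((p.1 - (A + c * (p.2 - η))) ^ 2 / s ^ 2)) *
      Real.exp (-((p.2 - η) ^ 2 / (2 / s) ^ 2))) (volume.prod volume) := by
    rw [integrable_prod_iff' hc.aestronglyMeasurable]
    refine ⟨Filter.Eventually.of_forall fun y => ?_, ?_⟩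
    · exact (gauss_int hs (A + c * (y - η))).1.mul_const (Real.exp (-((y - η) ^ 2 / (2 / s) ^ 2)))
    have e : (fun y : ℝ => ∫ x : ℝ, ‖Real.exp (-((x - (A + c * (y - η))) ^ 2 / s ^ 2)) *
      Real.exp (-((y - η) ^ 2 / (2 / s) ^ 2))‖) =
        fun y => s * Real.sqrt Real.pi * Real.exp (-((y - η) ^ 2 / (2 / s) ^ 2)) := by
      funext y
      rw [← hv y]
      refine integral_congr_ae (Filter.Eventually.of_forall fun x => ?_)
      simp only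
      rw [Real.norm_of_nonneg (by positivity)]
    have e' : Integrable (fun y : ℝ => s * Real.sqrt Real.pi *
        Real.exp (-((y - η) ^ 2 / (2 / s) ^ 2))) := (gauss_int h2 η).1.const_mul _
    rw [← e] at e'
    exact e'
  refine ⟨hi, ?_⟩
  rw [Measure.volume_eq_prod, integral_prod_symm _ hi]
  simp only
  simp only [hv]
  rw [integral_const_mul, (gauss_int h2 η).2]
  have : Real.sqrt Real.pi * Real.sqrt Real.pi = Real.pi := Real.mul_self_sqrt Real.pi_pos.le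
  field_simp
  nlinarith

lemma good_pk {s : ℝ} (hs : 0 < s) (y η t : ℝ) : Good (pk s y η t) := by
  have hc : Continuous (pk s y η t) :=
    (cont_pk s).comp (g := fun q : ℝ × ℝ × ℝ × ℝ => pk s q.1 q.2.1 q.2.2.1 q.2.2.2)
      (f := fun ξ : ℝ => (y, η, t, ξ)) (by fun_prop)
  have hi : Integrable (pk s y η t) := by
    have hg : Integrable (fun ξ : ℝ => Real.exp (-(Real.pi * s ^ 2) * (ξ - η) ^ 2)) :=
      (integrable_exp_neg_mul_sq (by positivity : (0:ℝ) < Real.pi * s ^ 2)).comp_sub_right η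
    refine (hg.const_mul ((2:ℝ) ^ (1/4 : ℝ) * Real.sqrt s)).mono' hc.aestronglyMeasurable
      (Filter.Eventually.of_forall fun ξ => le_of_eq ?_)
    unfold pk
    rw [norm_mul, norm_ex, mul_one, Complex.norm_real, Real.norm_of_nonneg (by positivity)]
    congr 2
    ring
  refine ⟨hi, ?_⟩
  rw [memLp_two_iff_integrable_sq_norm hc.aestronglyMeasurable]
  refine (hi.norm.mul_const ((2:ℝ) ^ (1/4 : ℝ) * Real.sqrt s)).mono'
    (hc.norm.pow 2).aestronglyMeasurable (Filter.Eventually.of_forall fun ξ => ?_)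
  rw [Real.norm_of_nonneg (by positivity), sq]
  exact mul_le_mul_of_nonneg_left (norm_pk_le _ _ _ _) (norm_nonneg _)

/-- the coefficients of a packet at half the scale have bounded `L¹` norm -/
lemma ov_l1 (hO : StOv) {s : ℝ} (hs : 0 < s) (y η t₀ t : ℝ) (ht : |t - t₀| ≤ s ^ 2 / 2) :
    Integrable (fun p : ℝ × ℝ => ‖cf (s / 2) p.1 p.2 t (pk s y η t₀)‖) ∧
    ∫ p : ℝ × ℝ, ‖cf (s / 2) p.1 p.2 t (pk s y η t₀)‖ ≤ 2 * Real.pi := by
  set A := y + 2 * η * (t - t₀)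
  set c := 2 * (s / 2) ^ 2 * (t - t₀) / (s ^ 2 + (s / 2) ^ 2)
  obtain ⟨g1, g2⟩ := gauss_shear hs A c η
  have key : ∀ p : ℝ × ℝ, ‖cf (s / 2) p.1 p.2 t (pk s y η t₀)‖ ≤
      Real.exp (-((p.1 - (A + c * (p.2 - η))) ^ 2 / s ^ 2)) *
      Real.exp (-((p.2 - η) ^ 2 / (2 / s) ^ 2)) := fun p => by
    refine (hO s (s / 2) hs (by positivity) y η t₀ p.1 p.2 t).trans ?_
    have h1 : Real.sqrt (2 * s * (s / 2) / (s ^ 2 + (s / 2) ^ 2)) ≤ 1 := by
      rw [Real.sqrt_le_one]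
      rw [div_le_one (by positivity)]
      nlinarith [sq_nonneg s]
    have hk : 1 / s ^ 2 ≤ Real.pi * (s ^ 2 + (s / 2) ^ 2) /
        ((s ^ 2 + (s / 2) ^ 2) ^ 2 + 4 * (t - t₀) ^ 2) := by
      rw [div_le_div_iff₀ (by positivity) (by positivity)]
      have h3 : (t - t₀) ^ 2 ≤ (s ^ 2 / 2) ^ 2 := sq_le_sq' (by linarith [abs_le.1 ht])
        (abs_le.1 ht).2
      have h4 : 0 < s ^ 2 * s ^ 2 := by positivity
      nlinarith [Real.pi_gt_three]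
    rw [← Real.exp_add]
    refine (mul_le_of_le_one_left (Real.exp_pos _).le h1).trans (Real.exp_le_exp.2 ?_)
    have h5 : p.1 - y - 2 * η * (t - t₀) - c * (p.2 - η) = p.1 - (A + c * (p.2 - η)) := by
      simp only [A]; ring
    rw [h5]
    set u := (p.1 - (A + c * (p.2 - η))) ^ 2
    set v := (p.2 - η) ^ 2
    have h6 : 0 ≤ u + s ^ 2 * (s / 2) ^ 2 * v := by positivity
    have h7 := mul_le_mul_of_nonneg_right hk h6
    have h8 : 1 / s ^ 2 * (u + s ^ 2 * (s / 2) ^ 2 * v) = u / s ^ 2 + v / (2 / s) ^ 2 := by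
      field_simp
    rw [h8] at h7
    linarith
  have hi : Integrable (fun p : ℝ × ℝ => ‖cf (s / 2) p.1 p.2 t (pk s y η t₀)‖) := by
    refine g1.mono' (cf_cont_t (good_pk hs y η t₀) (s / 2) t).norm.aestronglyMeasurable
      (Filter.Eventually.of_forall fun p => ?_)
    rw [norm_norm]
    exact key p
  exact ⟨hi, (integral_mono hi g1 key).trans g2.le⟩

lemma four_diff {x y : ℂ} {M : ℝ} (hx : ‖x‖ ≤ M) (hy : ‖y‖ ≤ M) :
    ‖x‖ ^ 2 * ‖x‖ ^ 2 - ‖y‖ ^ 2 * ‖y‖ ^ 2 ≤ 4 * M ^ 3 * ‖x - y‖ := by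
  have hM : 0 ≤ M := (norm_nonneg x).trans hx
  have h1 : ‖x‖ - ‖y‖ ≤ ‖x - y‖ := norm_sub_norm_le x y
  rcases le_total ‖x‖ ‖y‖ with h | h
  · have h2 : ‖x‖ ^ 2 ≤ ‖y‖ ^ 2 := pow_le_pow_left₀ (norm_nonneg _) h 2
    have h3 : 0 ≤ 4 * M ^ 3 * ‖x - y‖ := by positivity
    nlinarith [sq_nonneg ‖x‖, sq_nonneg ‖y‖]
  · have e : ‖x‖ ^ 2 * ‖x‖ ^ 2 - ‖y‖ ^ 2 * ‖y‖ ^ 2 =
        (‖x‖ - ‖y‖) * ((‖x‖ + ‖y‖) * (‖x‖ ^ 2 + ‖y‖ ^ 2)) := by ring
    rw [e, mul_comm (4 * M ^ 3)]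
    have h4 : (‖x‖ + ‖y‖) * (‖x‖ ^ 2 + ‖y‖ ^ 2) ≤ 4 * M ^ 3 := by
      have h5 : ‖x‖ ^ 2 ≤ M ^ 2 := pow_le_pow_left₀ (norm_nonneg _) hx 2
      have h6 : ‖y‖ ^ 2 ≤ M ^ 2 := pow_le_pow_left₀ (norm_nonneg _) hy 2
      calc (‖x‖ + ‖y‖) * (‖x‖ ^ 2 + ‖y‖ ^ 2) ≤ (M + M) * (M ^ 2 + M ^ 2) :=
            mul_le_mul (add_le_add hx hy) (add_le_add h5 h6) (by positivity) (by positivity)
        _ = 4 * M ^ 3 := by ring
    exact mul_le_mul h1 h4 (by positivity) (norm_nonneg _)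

lemma cf_pruned {B b C₀ C₁ s t₀ : ℝ} (hs : 0 < s) {g g' : ℝ → ℂ} {n : ℕ} {c : ℕ → ℂ}
    {y η : ℕ → ℝ} (P : Pruned B b C₀ C₁ s t₀ g g' n c y η) (s' y' η' t : ℝ) :
    cf s' y' η' t g - cf s' y' η' t g' =
      ∑ i ∈ Finset.range n, c i * cf s' y' η' t (pk s (y i) (η i) t₀) := by
  rw [← cf_sub P.good P.good']
  unfold cf
  have e : ∀ ξ, (g ξ - g' ξ) * (starRingEnd ℂ) (pk s' y' η' t ξ) =
      ∑ i ∈ Finset.range n, c i * (pk s (y i) (η i) t₀ ξ *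
        (starRingEnd ℂ) (pk s' y' η' t ξ)) := fun ξ => by
    rw [P.eq ξ, add_sub_cancel_left, Finset.sum_mul]
    exact Finset.sum_congr rfl fun i _ => by ring
  simp only [e]
  rw [integral_finsetSum _ fun i _ => ((int_cf (good_pk hs _ _ _) s' y' η' t).const_mul _)]
  exact Finset.sum_congr rfl fun i _ => by rw [integral_const_mul]

/-- cost of pruning for the quartic functional at the scale `s / 2` -/
lemma cost (hR : StRep) (hO : StOv) {B b C₀ C₁ s t₀ : ℝ} (hs : 0 < s) (hb : 0 < b)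
    {g g' : ℝ → ℂ} {n : ℕ} {c : ℕ → ℂ} {y η : ℕ → ℝ}
    (P : Pruned B b C₀ C₁ s t₀ g g' n c y η) {t Q : ℝ} (ht : |t - t₀| ≤ s ^ 2 / 2) (hQ : 0 ≤ Q)
    (h1 : Amp (s / 2) t g (Q * b * Real.sqrt s)) (h2 : Amp (s / 2) t g' (Q * b * Real.sqrt s)) :
    Fq (s / 2) t g g - Fq (s / 2) t g' g' ≤
      16 * Real.pi * Q ^ 3 * b ^ 2 * ∑ i ∈ Finset.range n, ‖c i‖ ^ 2 := by
  have hs2 : 0 < s / 2 := by positivity
  set M := Q * b * Real.sqrt s
  have hM : 0 ≤ M := by positivity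
  have i1 := int_Fq hR hs2 t P.good P.good h1
  have i2 := int_Fq hR hs2 t P.good' P.good' h2
  have i3 : Integrable (fun p : ℝ × ℝ => 4 * M ^ 3 * ∑ i ∈ Finset.range n,
      ‖c i‖ * ‖cf (s / 2) p.1 p.2 t (pk s (y i) (η i) t₀)‖) :=
    (integrable_finsetSum _ fun i _ =>
      ((ov_l1 hO hs (y i) (η i) t₀ t ht).1.const_mul _)).const_mul _
  have e1 : Fq (s / 2) t g g - Fq (s / 2) t g' g' ≤
      (s / 2)⁻¹ * ∫ p : ℝ × ℝ, 4 * M ^ 3 * ∑ i ∈ Finset.range n,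
      ‖c i‖ * ‖cf (s / 2) p.1 p.2 t (pk s (y i) (η i) t₀)‖ := by
    unfold Fq
    rw [← mul_sub, ← integral_sub i1 i2]
    refine mul_le_mul_of_nonneg_left (integral_mono (i1.sub i2) i3 fun p => ?_)
      (inv_nonneg.2 hs2.le)
    refine (four_diff (h1 p.1 p.2) (h2 p.1 p.2)).trans ?_
    refine mul_le_mul_of_nonneg_left ?_ (by positivity)
    rw [cf_pruned hs P]
    exact (norm_sum_le _ _).trans (Finset.sum_le_sum fun i _ => (norm_mul _ _).le)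
  have e2 : ∫ p : ℝ × ℝ, 4 * M ^ 3 * ∑ i ∈ Finset.range n,
      ‖c i‖ * ‖cf (s / 2) p.1 p.2 t (pk s (y i) (η i) t₀)‖ ≤
      4 * M ^ 3 * ∑ i ∈ Finset.range n, ‖c i‖ * (2 * Real.pi) := by
    rw [integral_const_mul, integral_finsetSum _ fun i _ =>
      ((ov_l1 hO hs (y i) (η i) t₀ t ht).1.const_mul _)]
    refine mul_le_mul_of_nonneg_left (Finset.sum_le_sum fun i _ => ?_) (by positivity)
    rw [integral_const_mul]
    exact mul_le_mul_of_nonneg_left (ov_l1 hO hs (y i) (η i) t₀ t ht).2 (norm_nonneg _)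
  have hq : 0 < b * Real.sqrt s := mul_pos hb (Real.sqrt_pos.2 hs)
  have e3 : ∑ i ∈ Finset.range n, ‖c i‖ * (2 * Real.pi) ≤
      (2 * Real.pi) / (b * Real.sqrt s) * ∑ i ∈ Finset.range n, ‖c i‖ ^ 2 := by
    rw [Finset.mul_sum]
    refine Finset.sum_le_sum fun i hi => ?_
    have := P.big i (Finset.mem_range.1 hi)
    rw [div_mul_eq_mul_div, le_div_iff₀ hq]
    have h3 : 0 ≤ ‖c i‖ * (2 * Real.pi) := by positivity
    nlinarith [mul_le_mul_of_nonneg_left this.le h3]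
  refine e1.trans ((mul_le_mul_of_nonneg_left (e2.trans (mul_le_mul_of_nonneg_left e3
    (by positivity))) (inv_nonneg.2 hs2.le)).trans (le_of_eq ?_))
  have hs' : Real.sqrt s * Real.sqrt s = s := Real.mul_self_sqrt hs.le
  have hs3 : Real.sqrt s ≠ 0 := (Real.sqrt_pos.2 hs).ne'
  simp only [M]
  have : Real.sqrt s ^ 3 = s * Real.sqrt s := by rw [pow_succ, sq, hs']
  rw [mul_pow, mul_pow, this]
  field_simp
  ring

end Vale.Agent.P076.H7
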