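import Vale.Agent.P076.X.SpecP
import Vale.Agent.P076.H7.Sum2

/-! # P076, X.SUM: total variation of the pruning process, `StSumP` (helper7) -/

open MeasureTheory

namespace Vale.Agent.P076.H7

open Vale.Agent.P076.X

lemma one_sub_exp_ge {u : ℝ} (hu : 0 ≤ u) : min 1 u / 2 ≤ 1 - Real.exp (-u) := by
  rcases le_total u 1 with h | h
  · rw [min_eq_right h]
    have h2 : Real.exp (-u) ≤ 1 - u / 2 := by
      have h3 := Real.add_one_le_exp u
      have h4 : Real.exp (-u) * Real.exp u = 1 := by rw [← Real.exp_add]; simp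
      have h5 := Real.exp_pos (-u)
      have h6 : Real.exp (-u) * (1 + u) ≤ 1 := by nlinarith
      have h7 : 1 ≤ (1 - u / 2) * (1 + u) := by nlinarith
      nlinarith
    linarith
  · rw [min_eq_left h]
    have : Real.exp (-u) ≤ Real.exp (-1) := Real.exp_le_exp.2 (by linarith)
    have h2 : Real.exp (-1) ≤ 1 / 2 := by
      have := Real.exp_one_gt_d9
      rw [Real.exp_neg, inv_eq_one_div]
      apply one_div_le_one_div_of_le (by norm_num)
      linarith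
    linarith

/-- the weight of `StTelA` -/
noncomputable def wt (s a : ℝ) : ℝ := (Real.exp (-(Real.pi * s ^ 2 * a ^ 2 / 4)) -
      Real.exp (-(Real.pi * s ^ 2 * a ^ 2))) * min 1 (s * |a|)

lemma mu_le_wt {s : ℝ} (hs : 0 < s) (a : ℝ) : mu s a ≤ 2 * wt s a := by
  unfold mu wt
  set p := s * |a| with hp
  have hp0 : 0 ≤ p := by positivity
  have e1 : s ^ 2 * a ^ 2 = p ^ 2 := by rw [hp, mul_pow, sq_abs]
  have e2 : Real.pi * s ^ 2 * a ^ 2 = Real.pi * p ^ 2 := by rw [mul_assoc, e1]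
  rw [e2]
  have e3 : Real.exp (-(Real.pi * p ^ 2 / 4)) - Real.exp (-(Real.pi * p ^ 2)) =
      Real.exp (-(Real.pi * p ^ 2 / 4)) * (1 - Real.exp (-(3 * Real.pi / 4 * p ^ 2))) := by
    rw [mul_sub, mul_one, ← Real.exp_add]
    congr 2
    ring
  rw [e3]
  have hu : 0 ≤ 3 * Real.pi / 4 * p ^ 2 := by positivity
  have h1 := one_sub_exp_ge hu
  have h2 : min 1 (p ^ 2) ≤ min 1 (3 * Real.pi / 4 * p ^ 2) := by
    apply min_le_min_left
    have : 1 ≤ 3 * Real.pi / 4 := by linarith [Real.pi_gt_three]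
    nlinarith [sq_nonneg p]
  have h3 : min 1 (p ^ 3) ≤ min 1 (p ^ 2) * min 1 p := by
    rcases le_total p 1 with h | h
    · rw [min_eq_right (pow_le_one₀ hp0 h), min_eq_right (pow_le_one₀ hp0 h), min_eq_right h]
      exact le_of_eq (by ring)
    · rw [min_eq_left (one_le_pow₀ h), min_eq_left (one_le_pow₀ h), min_eq_left h]
      norm_num
  have h4 : Real.exp (-(Real.pi * p ^ 2 / 2)) ≤ Real.exp (-(Real.pi * p ^ 2 / 4)) := by
    apply Real.exp_le_exp.2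
    have : 0 ≤ Real.pi * p ^ 2 := by positivity
    linarith
  have h5 : 0 ≤ min 1 (p ^ 3) := le_min zero_le_one (by positivity)
  have h6 : 0 ≤ min 1 p := le_min zero_le_one hp0
  have h7 : min 1 (p ^ 2) / 2 ≤ 1 - Real.exp (-(3 * Real.pi / 4 * p ^ 2)) := by linarith
  calc min 1 (p ^ 3) * Real.exp (-(Real.pi * p ^ 2 / 2))
      ≤ (min 1 (p ^ 2) * min 1 p) * Real.exp (-(Real.pi * p ^ 2 / 4)) :=
        mul_le_mul h3 h4 (Real.exp_pos _).le (h5.trans h3)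
    _ = 2 * (Real.exp (-(Real.pi * p ^ 2 / 4)) * (min 1 (p ^ 2) / 2) * min 1 p) := by ring
    _ ≤ _ := by
        refine mul_le_mul_of_nonneg_left ?_ (by norm_num)
        refine mul_le_mul_of_nonneg_right ?_ h6
        exact mul_le_mul_of_nonneg_left h7 (Real.exp_pos _).le

lemma wgt_wt {s : ℝ} (hs : 0 < s) : Wgt (wt s) := by
  refine ⟨?_, fun a => ?_, fun a => ?_⟩
  · have : Continuous (wt s) := by unfold wt; fun_prop
    exact this.measurable
  · have h1 := mu_le_wt hs a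
    have h2 : 0 ≤ mu s a := by
      unfold mu
      exact mul_nonneg (le_min zero_le_one (by positivity)) (Real.exp_pos _).le
    linarith
  · unfold wt
    have h1 : Real.exp (-(Real.pi * s ^ 2 * a ^ 2 / 4)) ≤ 1 := by
      apply Real.exp_le_one_iff.2
      have : 0 ≤ Real.pi * s ^ 2 * a ^ 2 := by positivity
      linarith
    have h2 := Real.exp_pos (-(Real.pi * s ^ 2 * a ^ 2))
    have h3 : min 1 (s * |a|) ≤ 1 := min_le_left _ _
    have h4 : 0 ≤ min 1 (s * |a|) := le_min zero_le_one (by positivity)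
    have h5 : Real.exp (-(Real.pi * s ^ 2 * a ^ 2)) ≤ Real.exp (-(Real.pi * s ^ 2 * a ^ 2 / 4)) := by
      apply Real.exp_le_exp.2
      have : 0 ≤ Real.pi * s ^ 2 * a ^ 2 := by positivity
      linarith
    exact mul_le_one₀ (by linarith) h4 h3

lemma mu_nonneg {s : ℝ} (hs : 0 < s) (a : ℝ) : 0 ≤ mu s a := by
  unfold mu
  exact mul_nonneg (le_min zero_le_one (by positivity)) (Real.exp_pos _).le

lemma mu_int_le {s : ℝ} (hs : 0 < s) {g : ℝ → ℂ} (h : Good g) {α β : ℝ} (hab : α ≤ β) :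
    ∫ t in α..β, ∫ a, mu s a * ‖uh g g a t‖ ^ 2 ≤
      2 * ∫ t in α..β, ∫ a, wt s a * ‖uh g g a t‖ ^ 2 := by
  rw [← intervalIntegral.integral_const_mul]
  have hw := wgt_wt hs
  have hm : Wgt (mu s) := by
    refine ⟨?_, mu_nonneg hs, fun a => ?_⟩
    · have : Continuous (mu s) := by unfold mu; fun_prop
      exact this.measurable
    · unfold mu
      have : 0 ≤ Real.pi * s ^ 2 * a ^ 2 := by positivity
      exact mul_le_one₀ (min_le_left _ _) (Real.exp_pos _).le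
        (Real.exp_le_one_iff.2 (by linarith))
  refine intervalIntegral.integral_mono_on hab (ii_w hm h h α β)
    ((ii_w hw h h α β).const_mul 2) fun t _ => ?_
  rw [← integral_const_mul]
  refine integral_mono (int_w hm h h t) ((int_w hw h h t).const_mul 2) fun a => ?_
  simp only
  rw [← mul_assoc]
  exact mul_le_mul_of_nonneg_right (mu_le_wt hs a) (by positivity)

/-! ### the tree of time intervals -/

lemma sum_four (f : ℕ → ℝ) (n : ℕ) : ∑ k ∈ Finset.range (4 * n), f k =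
    ∑ k ∈ Finset.range n, (f (4 * k) + f (4 * k + 1) + f (4 * k + 2) + f (4 * k + 3)) := by
  induction n with
  | zero => simp
  | succ n ih =>
    rw [show 4 * (n + 1) = 4 * n + 1 + 1 + 1 + 1 by ring, Finset.sum_range_succ,
      Finset.sum_range_succ, Finset.sum_range_succ, Finset.sum_range_succ, ih,
      Finset.sum_range_succ]
    ring

lemma sum_child (f : ℕ → ℝ → ℝ) {h : ℝ} (n : ℕ)
    (hf : ∀ k < n, ∀ α β, IntervalIntegrable (f k) volume α β) :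
    ∑ k ∈ Finset.range (4 * n), (∫ t in (k * h)..((k + 1) * h), f (k / 4) t) =
    ∑ k ∈ Finset.range n, ∫ t in (k * (4 * h))..((k + 1) * (4 * h)), f k t := by
  rw [sum_four]
  refine Finset.sum_congr rfl fun k hk => ?_
  replace hf := hf k (Finset.mem_range.1 hk)
  have d0 : 4 * k / 4 = k := by omega
  have d1 : (4 * k + 1) / 4 = k := by omega
  have d2 : (4 * k + 2) / 4 = k := by omega
  have d3 : (4 * k + 3) / 4 = k := by omega
  rw [d0, d1, d2, d3]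
  push_cast
  rw [show (k:ℝ) * (4 * h) = 4 * k * h by ring,
    show ((k:ℝ) + 1) * (4 * h) = (4 * k + 3 + 1) * h by ring]
  rw [intervalIntegral.integral_add_adjacent_intervals (hf _ _) (hf _ _)]
  rw [show ((4 * (k:ℝ) + 1 + 1) * h) = (4 * k + 2) * h by ring,
    intervalIntegral.integral_add_adjacent_intervals (hf _ _) (hf _ _)]
  rw [show ((4 * (k:ℝ) + 2 + 1) * h) = (4 * k + 3) * h by ring,
    intervalIntegral.integral_add_adjacent_intervals (hf _ _) (hf _ _)]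

lemma sc_pos (m l : ℕ) : 0 < sc m l := by unfold sc; positivity

lemma sc_succ (m l : ℕ) : sc m (l + 1) = sc m l / 2 := by
  unfold sc
  rw [pow_succ]
  field_simp

lemma sc_succ_sq (m l : ℕ) : 4 * sc m (l + 1) ^ 2 = sc m l ^ 2 := by
  rw [sc_succ]; ring

/-- a sum over the windows of the level `l` -/
noncomputable def SW (m l : ℕ) (f : ℕ → ℝ → ℝ) : ℝ :=
  ∑ k ∈ Finset.range (4 ^ l), ∫ t in (k * (sc m l) ^ 2)..((k + 1) * (sc m l) ^ 2), f k t

lemma SW_child (m l : ℕ) (f : ℕ → ℝ → ℝ)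
    (hf : ∀ k < 4 ^ l, ∀ α β, IntervalIntegrable (f k) volume α β) :
    SW m (l + 1) (fun k => f (k / 4)) = SW m l f := by
  unfold SW
  rw [pow_succ, mul_comm (4 ^ l) 4, sum_child f (4 ^ l) hf, sc_succ_sq]

lemma SW_const (m l : ℕ) (c : ℕ → ℝ) :
    SW m l (fun k _ => c k) = ∑ k ∈ Finset.range (4 ^ l), sc m l ^ 2 * c k := by
  unfold SW
  refine Finset.sum_congr rfl fun k _ => ?_
  rw [intervalIntegral.integral_const, smul_eq_mul]
  ring

lemma SW_congr {m l : ℕ} {f f' : ℕ → ℝ → ℝ} (h : ∀ k < 4 ^ l, ∀ t, f k t = f' k t) :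
    SW m l f = SW m l f' := by
  unfold SW
  refine Finset.sum_congr rfl fun k hk => ?_
  have : f k = f' k := funext fun t => h k (Finset.mem_range.1 hk) t
  rw [this]

lemma SW_le {m l : ℕ} {f f' : ℕ → ℝ → ℝ}
    (hf : ∀ k < 4 ^ l, ∀ α β, IntervalIntegrable (f k) volume α β)
    (hf' : ∀ k < 4 ^ l, ∀ α β, IntervalIntegrable (f' k) volume α β)
    (h : ∀ k : ℕ, k < 4 ^ l → ∀ t : ℝ, t ∈ Set.Icc ((k:ℝ) * sc m l ^ 2) ((k + 1) * sc m l ^ 2) →
      f k t ≤ f' k t) :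
    SW m l f ≤ SW m l f' := by
  unfold SW
  refine Finset.sum_le_sum fun k hk => ?_
  have hk := Finset.mem_range.1 hk
  have h0 : (k:ℝ) * sc m l ^ 2 ≤ (k + 1) * sc m l ^ 2 := by nlinarith [sq_nonneg (sc m l)]
  exact intervalIntegral.integral_mono_on h0 (hf k hk _ _) (hf' k hk _ _) (h k hk)

lemma SW_add {m l : ℕ} {f f' : ℕ → ℝ → ℝ}
    (hf : ∀ k < 4 ^ l, ∀ α β, IntervalIntegrable (f k) volume α β)
    (hf' : ∀ k < 4 ^ l, ∀ α β, IntervalIntegrable (f' k) volume α β) :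
    SW m l (fun k t => f k t + f' k t) = SW m l f + SW m l f' := by
  unfold SW
  rw [← Finset.sum_add_distrib]
  refine Finset.sum_congr rfl fun k hk => ?_
  have hk := Finset.mem_range.1 hk
  exact intervalIntegral.integral_add (hf k hk _ _) (hf' k hk _ _)

lemma SW_nonneg {m l : ℕ} {f : ℕ → ℝ → ℝ} (h : ∀ k < 4 ^ l, ∀ t, 0 ≤ f k t) : 0 ≤ SW m l f := by
  unfold SW
  refine Finset.sum_nonneg fun k hk => ?_
  have h0 : (k:ℝ) * sc m l ^ 2 ≤ (k + 1) * sc m l ^ 2 := by nlinarith [sq_nonneg (sc m l)]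
  exact intervalIntegral.integral_nonneg h0 fun t _ => h k (Finset.mem_range.1 hk) t

section process

variable {B b C₀ C₁ : ℝ} {m N : ℕ} {g : ℝ → ℂ} (Pr : Proc B b C₀ C₁ m N g)

include Pr in
lemma good_gi {l k : ℕ} (hl : l ≤ N) (hk : k < 4 ^ l) : Good (Pr.gi l k) := (Pr.prn l hl k hk).good

lemma good_go {l k : ℕ} (hl : l ≤ N) (hk : k < 4 ^ l) : Good (Pr.go l k) := (Pr.prn l hl k hk).good'

lemma k_div {l k : ℕ} (hk : k < 4 ^ (l + 1)) : k / 4 < 4 ^ l := by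
  rw [pow_succ] at hk; omega

/-- amplitude of the outputs -/
lemma amp_go {Ca : ℝ} (hCa : 1 ≤ Ca)
    (hA : ∀ s s' t₀ t M : ℝ, 0 < s → s / 8 ≤ s' → s' ≤ 8 * s →
      |t - t₀| ≤ 8 * s ^ 2 → ∀ g : ℝ → ℂ, Good g → (∀ y η, ‖cf s y η t₀ g‖ ≤ M) →
      ∀ y η, ‖cf s' y η t g‖ ≤ Ca * M) (hb : 0 < b)
    {l k : ℕ} (hl : l ≤ N) (hk : k < 4 ^ l) {t : ℝ}
    (ht : t ∈ Set.Icc (k * sc m l ^ 2) ((k + 1) * sc m l ^ 2)) :
    Amp (sc m l / 2) t (Pr.go l k) (2 * Ca * b * Real.sqrt (sc m l)) := by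
  have hs := sc_pos m l
  have h0 := hA (sc m l) (sc m l / 2) (ct m l k) t (b * Real.sqrt (sc m l)) hs (by linarith)
    (by linarith) (by
      have : ct m l k = ((k:ℝ) + 1 / 2) * sc m l ^ 2 := rfl
      rw [this, abs_le]
      have h2 : 0 ≤ sc m l ^ 2 := by positivity
      constructor <;> nlinarith [ht.1, ht.2]) (Pr.go l k) (good_go Pr hl hk)
    (Pr.prn l hl k hk).small
  intro y η
  refine (h0 y η).trans ?_
  have : 0 ≤ b * Real.sqrt (sc m l) := by positivity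
  nlinarith

/-- amplitude of the inputs -/
lemma amp_gi {Ca : ℝ} (hCa : 1 ≤ Ca)
    (hA : ∀ s s' t₀ t M : ℝ, 0 < s → s / 8 ≤ s' → s' ≤ 8 * s →
      |t - t₀| ≤ 8 * s ^ 2 → ∀ g : ℝ → ℂ, Good g → (∀ y η, ‖cf s y η t₀ g‖ ≤ M) →
      ∀ y η, ‖cf s' y η t g‖ ≤ Ca * M) (hb : 0 < b)
    {l k : ℕ} (hl : l + 1 ≤ N) (hk : k < 4 ^ (l + 1)) {t : ℝ}
    (ht : t ∈ Set.Icc (k * sc m (l + 1) ^ 2) ((k + 1) * sc m (l + 1) ^ 2)) :
    Amp (sc m (l + 1) / 2) t (Pr.gi (l + 1) k) (2 * Ca * b * Real.sqrt (sc m (l + 1))) := by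
  have hs := sc_pos m (l + 1)
  have hp : sc m l = 2 * sc m (l + 1) := by rw [sc_succ]; ring
  have hk' := k_div hk
  rw [Pr.step l (by omega) k hk]
  have h0 := hA (sc m l) (sc m (l + 1) / 2) (ct m l (k / 4)) t (b * Real.sqrt (sc m l))
    (sc_pos m l) (by linarith) (by linarith) (by
      have : ct m l (k / 4) = (((k / 4 : ℕ):ℝ) + 1 / 2) * sc m l ^ 2 := rfl
      rw [this, hp, abs_le]
      have h2 : 0 ≤ sc m (l + 1) ^ 2 := by positivity
      have h3 : (4:ℝ) * ((k / 4 : ℕ):ℝ) ≤ k := by exact_mod_cast Nat.mul_div_le k 4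
      have h4 : (k:ℝ) ≤ 4 * ((k / 4 : ℕ):ℝ) + 3 := by
        have : k ≤ 4 * (k / 4) + 3 := by omega
        exact_mod_cast this
      constructor <;> nlinarith [ht.1, ht.2]) (Pr.go l (k / 4)) (good_go Pr (by omega) hk')
    (Pr.prn l (by omega) _ hk').small
  intro y η
  refine (h0 y η).trans ?_
  have h5 : Real.sqrt (sc m l) ≤ 2 * Real.sqrt (sc m (l + 1)) := by
    rw [hp]
    have : 2 * sc m (l + 1) ≤ 2 ^ 2 * sc m (l + 1) := by linarith
    refine (Real.sqrt_le_sqrt this).trans ?_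
    rw [Real.sqrt_mul (by positivity), Real.sqrt_sq (by norm_num)]
  have h6 : Ca * (b * Real.sqrt (sc m l)) ≤ Ca * (b * (2 * Real.sqrt (sc m (l + 1)))) := by
    gcongr
  linarith

/-- the quartic functional of the outputs at the level `l` -/
noncomputable def Bo (l : ℕ) : ℝ :=
  SW m l (fun k t => Fq (sc m l / 2) t (Pr.go l k) (Pr.go l k))

/-- the mass of the outputs -/
noncomputable def Mo (l : ℕ) : ℝ := ∑ k ∈ Finset.range (4 ^ l), sc m l ^ 2 * ms (Pr.go l k)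

/-- the total variation at the level `l` -/
noncomputable def Dl (l : ℕ) : ℝ :=
  SW m l (fun k t => ∫ a, wt (sc m l) a * ‖uh (Pr.gi l k) (Pr.gi l k) a t‖ ^ 2)

lemma Mo_succ {l : ℕ} (hl : l + 1 ≤ N) :
    ∑ k ∈ Finset.range (4 ^ (l + 1)), sc m (l + 1) ^ 2 *
      (∑ i ∈ Finset.range (Pr.n (l + 1) k), ‖Pr.c (l + 1) k i‖ ^ 2) = Mo Pr l - Mo Pr (l + 1) := by
  have e1 : ∑ k ∈ Finset.range (4 ^ (l + 1)), sc m (l + 1) ^ 2 * ms (Pr.gi (l + 1) k) =
      Mo Pr l := by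
    unfold Mo
    rw [← SW_const m l (fun k => ms (Pr.go l k)),
      ← SW_child m l (fun k _ => ms (Pr.go l k)) fun k _ α β => intervalIntegrable_const,
      SW_const m (l + 1) (fun k => ms (Pr.go l (k / 4)))]
    exact Finset.sum_congr rfl fun k hk => by rw [Pr.step l (by omega) k (Finset.mem_range.1 hk)]
  rw [← e1, Mo, ← Finset.sum_sub_distrib]
  refine Finset.sum_congr rfl fun k hk => ?_
  have := (Pr.prn (l + 1) hl k (Finset.mem_range.1 hk)).mass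
  rw [← this]
  ring

lemma step_le (hR : StRep) (hO : StOv) {c : ℝ} (hT : ∀ s : ℝ, 0 < s → ∀ α ℓ : ℝ, s ^ 2 ≤ ℓ →
    ∀ g : ℝ → ℂ, Good g →
    c * (∫ t in α..(α + ℓ), ∫ a, (Real.exp (-(Real.pi * s ^ 2 * a ^ 2 / 4)) -
      Real.exp (-(Real.pi * s ^ 2 * a ^ 2))) * min 1 (s * |a|) * ‖uh g g a t‖ ^ 2)
    ≤ ∫ t in α..(α + ℓ), (Fq (s / 2) t g g - Fq s t g g))
    {Ca : ℝ} (hCa : 1 ≤ Ca)
    (hA : ∀ s s' t₀ t M : ℝ, 0 < s → s / 8 ≤ s' → s' ≤ 8 * s →
      |t - t₀| ≤ 8 * s ^ 2 → ∀ g : ℝ → ℂ, Good g → (∀ y η, ‖cf s y η t₀ g‖ ≤ M) →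
      ∀ y η, ‖cf s' y η t g‖ ≤ Ca * M) (hb : 0 < b) {l : ℕ} (hl : l + 1 ≤ N) :
    c * Dl Pr (l + 1) ≤ Bo Pr (l + 1) - Bo Pr l +
      16 * Real.pi * (2 * Ca) ^ 3 * b ^ 2 * (Mo Pr l - Mo Pr (l + 1)) := by
  set s := sc m (l + 1) with hs_def
  have hs : 0 < s := sc_pos m (l + 1)
  have hs2 : 0 < s / 2 := by positivity
  have e0 : sc m l / 2 = s := (sc_succ m l).symm
  -- telescoping inequality on each window
  have h1 : c * Dl Pr (l + 1) ≤ SW m (l + 1) (fun k t =>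
      Fq (s / 2) t (Pr.gi (l + 1) k) (Pr.gi (l + 1) k) +
        (-Fq s t (Pr.gi (l + 1) k) (Pr.gi (l + 1) k))) := by
    unfold Dl SW
    rw [Finset.mul_sum]
    refine Finset.sum_le_sum fun k hk => ?_
    have := hT s hs (k * s ^ 2) (s ^ 2) le_rfl (Pr.gi (l + 1) k)
      (good_gi Pr hl (Finset.mem_range.1 hk))
    rw [show (k:ℝ) * s ^ 2 + s ^ 2 = (k + 1) * s ^ 2 by ring] at this
    simp only [sub_eq_add_neg] at this
    unfold wt
    simp only [sub_eq_add_neg]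
    exact this
  have i1 : ∀ k < 4 ^ (l + 1), ∀ α β, IntervalIntegrable
      (fun t => Fq (s / 2) t (Pr.gi (l + 1) k) (Pr.gi (l + 1) k)) volume α β := fun k hk α β =>
    ii_Fq hR hs2 (good_gi Pr hl hk) (good_gi Pr hl hk) α β
  have i2 : ∀ k < 4 ^ (l + 1), ∀ α β, IntervalIntegrable
      (fun t => Fq s t (Pr.gi (l + 1) k) (Pr.gi (l + 1) k)) volume α β := fun k hk α β =>
    ii_Fq hR hs (good_gi Pr hl hk) (good_gi Pr hl hk) α β
  have i3 : ∀ k < 4 ^ (l + 1), ∀ α β, IntervalIntegrable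
      (fun t => Fq (s / 2) t (Pr.go (l + 1) k) (Pr.go (l + 1) k)) volume α β := fun k hk α β =>
    ii_Fq hR hs2 (good_go Pr hl hk) (good_go Pr hl hk) α β
  have i4 : ∀ k < 4 ^ (l + 1), ∀ α β, IntervalIntegrable
      (fun t => -Fq s t (Pr.gi (l + 1) k) (Pr.gi (l + 1) k)) volume α β := fun k hk α β =>
    (i2 k hk α β).neg
  rw [SW_add i1 i4] at h1
  -- the negative term is the output of the previous level
  have h2 : SW m (l + 1) (fun k t => -Fq s t (Pr.gi (l + 1) k) (Pr.gi (l + 1) k)) =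
      -Bo Pr l := by
    have h3 : Bo Pr l = SW m (l + 1) (fun k t => Fq s t (Pr.gi (l + 1) k) (Pr.gi (l + 1) k)) := by
      unfold Bo
      rw [← SW_child m l (fun k t => Fq (sc m l / 2) t (Pr.go l k) (Pr.go l k))
        fun k hk α β => ii_Fq hR (by have := sc_pos m l; positivity)
          (good_go Pr (by omega) hk) (good_go Pr (by omega) hk) α β]
      refine SW_congr fun k hk t => ?_
      rw [e0, Pr.step l (by omega) k hk]
    rw [h3]
    unfold SW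
    rw [← Finset.sum_neg_distrib]
    exact Finset.sum_congr rfl fun k _ => intervalIntegral.integral_neg
  rw [h2] at h1
  -- pruning cost
  have h4 : SW m (l + 1) (fun k t => Fq (s / 2) t (Pr.gi (l + 1) k) (Pr.gi (l + 1) k)) ≤
      SW m (l + 1) (fun k t => Fq (s / 2) t (Pr.go (l + 1) k) (Pr.go (l + 1) k) +
        16 * Real.pi * (2 * Ca) ^ 3 * b ^ 2 *
          ∑ i ∈ Finset.range (Pr.n (l + 1) k), ‖Pr.c (l + 1) k i‖ ^ 2) := by
    refine SW_le i1 (fun k hk α β => (i3 k hk α β).add intervalIntegrable_const)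
      fun k hk t ht => ?_
    have ht' : |t - ct m (l + 1) k| ≤ s ^ 2 / 2 := by
      have : ct m (l + 1) k = ((k:ℝ) + 1 / 2) * s ^ 2 := rfl
      rw [this, abs_le]
      constructor <;> nlinarith [ht.1, ht.2]
    have := cost hR hO hs hb (Pr.prn (l + 1) hl k hk) ht' (by positivity : 0 ≤ 2 * Ca)
      (amp_gi Pr hCa hA hb hl hk ht) (amp_go Pr hCa hA hb hl hk ht)
    linarith
  rw [SW_add i3 fun k hk α β => intervalIntegrable_const, SW_const] at h4
  have h5 : ∑ k ∈ Finset.range (4 ^ (l + 1)), sc m (l + 1) ^ 2 *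
      (16 * Real.pi * (2 * Ca) ^ 3 * b ^ 2 *
        ∑ i ∈ Finset.range (Pr.n (l + 1) k), ‖Pr.c (l + 1) k i‖ ^ 2) =
      16 * Real.pi * (2 * Ca) ^ 3 * b ^ 2 * (Mo Pr l - Mo Pr (l + 1)) := by
    rw [← Mo_succ Pr hl, Finset.mul_sum]
    exact Finset.sum_congr rfl fun k _ => by ring
  rw [h5] at h4
  have h6 : SW m (l + 1) (fun k t => Fq (s / 2) t (Pr.go (l + 1) k) (Pr.go (l + 1) k)) =
    Bo Pr (l + 1) := rfl
  rw [h6] at h4
  linarith

lemma sum_le_of (hR : StRep) (hO : StOv) {c : ℝ} (hT : ∀ s : ℝ, 0 < s → ∀ α ℓ : ℝ, s ^ 2 ≤ ℓ →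
    ∀ g : ℝ → ℂ, Good g →
    c * (∫ t in α..(α + ℓ), ∫ a, (Real.exp (-(Real.pi * s ^ 2 * a ^ 2 / 4)) -
      Real.exp (-(Real.pi * s ^ 2 * a ^ 2))) * min 1 (s * |a|) * ‖uh g g a t‖ ^ 2)
    ≤ ∫ t in α..(α + ℓ), (Fq (s / 2) t g g - Fq s t g g))
    {Ca : ℝ} (hCa : 1 ≤ Ca)
    (hA : ∀ s s' t₀ t M : ℝ, 0 < s → s / 8 ≤ s' → s' ≤ 8 * s →
      |t - t₀| ≤ 8 * s ^ 2 → ∀ g : ℝ → ℂ, Good g → (∀ y η, ‖cf s y η t₀ g‖ ≤ M) →
      ∀ y η, ‖cf s' y η t g‖ ≤ Ca * M) (hb : 0 < b) (n : ℕ) (hn : n ≤ N) :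
    c * ∑ l ∈ Finset.Icc 1 n, Dl Pr l ≤ Bo Pr n +
      16 * Real.pi * (2 * Ca) ^ 3 * b ^ 2 * (Mo Pr 0 - Mo Pr n) := by
  induction n with
  | zero =>
    simp only [sub_self, mul_zero, add_zero]
    simp only [Finset.Icc_eq_empty_of_lt (show (0:ℕ) < 1 by norm_num), Finset.sum_empty, mul_zero]
    exact SW_nonneg fun k _ t => Fq_nonneg (by have := sc_pos m 0; positivity) t _ _
  | succ n ih =>
    rw [Finset.sum_Icc_succ_top (by omega)]
    have h1 := ih (by omega)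
    have h2 := step_le Pr hR hO hT hCa hA hb hn
    rw [mul_add]
    linarith

lemma Bo_le (hR : StRep) {Ca : ℝ} (hCa : 1 ≤ Ca)
    (hA : ∀ s s' t₀ t M : ℝ, 0 < s → s / 8 ≤ s' → s' ≤ 8 * s →
      |t - t₀| ≤ 8 * s ^ 2 → ∀ g : ℝ → ℂ, Good g → (∀ y η, ‖cf s y η t₀ g‖ ≤ M) →
      ∀ y η, ‖cf s' y η t g‖ ≤ Ca * M) (hb : 0 < b) {l : ℕ} (hl : l ≤ N) :
    Bo Pr l ≤ 2 * (2 * Ca) ^ 2 * b ^ 2 * Mo Pr l := by
  have hs := sc_pos m l
  have hs2 : 0 < sc m l / 2 := by positivity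
  have e : 2 * (2 * Ca) ^ 2 * b ^ 2 * Mo Pr l =
      SW m l (fun k _ => 2 * (2 * Ca) ^ 2 * b ^ 2 * ms (Pr.go l k)) := by
    rw [SW_const, Mo, Finset.mul_sum]
    exact Finset.sum_congr rfl fun k _ => by ring
  rw [e]
  refine SW_le (fun k hk α β => ii_Fq hR hs2 (good_go Pr hl hk) (good_go Pr hl hk) α β)
    (fun k hk α β => intervalIntegrable_const) fun k hk t ht => ?_
  refine (Fq_le hR hs2 t (good_go Pr hl hk) (amp_go Pr hCa hA hb hl hk ht)).trans (le_of_eq ?_)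
  have : Real.sqrt (sc m l) ^ 2 = sc m l := Real.sq_sqrt hs.le
  rw [mul_pow, this]
  field_simp

lemma Mo_zero_le : Mo Pr 0 ≤ sc m 0 ^ 2 * ms g := by
  unfold Mo
  rw [pow_zero, Finset.sum_range_one]
  have h := (Pr.prn 0 (Nat.zero_le _) 0 (by norm_num)).mass
  rw [Pr.top] at h
  have h2 : 0 ≤ ∑ i ∈ Finset.range (Pr.n 0 0), ‖Pr.c 0 0 i‖ ^ 2 :=
    Finset.sum_nonneg fun _ _ => by positivity
  exact mul_le_mul_of_nonneg_left (by linarith) (by positivity)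

lemma Mo_nonneg (l : ℕ) : 0 ≤ Mo Pr l :=
  Finset.sum_nonneg fun k _ => mul_nonneg (by positivity) (ms_nonneg _)

end process

/-- X6': total variation of the pruning process -/
theorem stSumP (hT : StTelA) (hA : StAmp) (hR : StRep) (hO : StOv) : StSumP := by
  obtain ⟨c, hc, hT⟩ := hT
  obtain ⟨Ca, hCa, hA⟩ := hA
  refine ⟨1, le_rfl, fun B C₁ _ _ => ?_⟩
  set E := 16 * Real.pi * (2 * Ca) ^ 3 + 2 * (2 * Ca) ^ 2
  have hE : 0 < E := by positivity
  refine ⟨2 * (E / c), by positivity, fun b m N g hb Pr => ?_⟩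
  have h1 := sum_le_of Pr hR hO hT hCa hA hb N le_rfl
  have h2 := Bo_le Pr hR hCa hA hb (le_refl N)
  have h3 := Mo_zero_le Pr
  have h4 := Mo_nonneg Pr N
  have h5 : ∑ l ∈ Finset.Icc 1 N, ∑ k ∈ Finset.range (4 ^ l),
      (∫ t in (k * (sc m l) ^ 2)..((k + 1) * (sc m l) ^ 2),
        ∫ a, mu (sc m l) a * ‖uh (Pr.gi l k) (Pr.gi l k) a t‖ ^ 2) ≤
      2 * ∑ l ∈ Finset.Icc 1 N, Dl Pr l := by
    rw [Finset.mul_sum]
    refine Finset.sum_le_sum fun l hl => ?_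
    rw [Dl, SW, Finset.mul_sum]
    refine Finset.sum_le_sum fun k hk => ?_
    have h0 : (k:ℝ) * sc m l ^ 2 ≤ (k + 1) * sc m l ^ 2 := by nlinarith [sq_nonneg (sc m l)]
    exact mu_int_le (sc_pos m l) (good_gi Pr (Finset.mem_Icc.1 hl).2 (Finset.mem_range.1 hk)) h0
  have hb2 : 0 < b ^ 2 := by positivity
  have h6 : c * ∑ l ∈ Finset.Icc 1 N, Dl Pr l ≤ E * b ^ 2 * (sc m 0 ^ 2 * ms g) := by
    have h7 : 16 * Real.pi * (2 * Ca) ^ 3 * b ^ 2 * (Mo Pr 0 - Mo Pr N) +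
        2 * (2 * Ca) ^ 2 * b ^ 2 * Mo Pr N ≤ E * b ^ 2 * Mo Pr 0 := by
      have h8 : 0 ≤ 16 * Real.pi * (2 * Ca) ^ 3 := by positivity
      have h9 : 0 ≤ 2 * (2 * Ca) ^ 2 := by positivity
      have h10 : Mo Pr N ≤ Mo Pr 0 := by
        have : ∀ n ≤ N, Mo Pr n ≤ Mo Pr 0 := by
          intro n
          induction n with
          | zero => exact fun _ => le_rfl
          | succ n ih =>
            intro hn
            have e := Mo_succ Pr hn
            have : 0 ≤ ∑ k ∈ Finset.range (4 ^ (n + 1)), sc m (n + 1) ^ 2 *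
              (∑ i ∈ Finset.range (Pr.n (n + 1) k), ‖Pr.c (n + 1) k i‖ ^ 2) :=
              Finset.sum_nonneg fun k _ => mul_nonneg (by positivity)
                (Finset.sum_nonneg fun _ _ => by positivity)
            linarith [ih (by omega)]
        exact this N le_rfl
      have h11 : 2 * (2 * Ca) ^ 2 * b ^ 2 * Mo Pr N ≤ 2 * (2 * Ca) ^ 2 * b ^ 2 * Mo Pr 0 :=
        mul_le_mul_of_nonneg_left h10 (by positivity)
      have h12 : 16 * Real.pi * (2 * Ca) ^ 3 * b ^ 2 * (Mo Pr 0 - Mo Pr N) ≤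
          16 * Real.pi * (2 * Ca) ^ 3 * b ^ 2 * Mo Pr 0 :=
        mul_le_mul_of_nonneg_left (by linarith) (by positivity)
      simp only [E]
      linarith
    have h13 : E * b ^ 2 * Mo Pr 0 ≤ E * b ^ 2 * (sc m 0 ^ 2 * ms g) :=
      mul_le_mul_of_nonneg_left h3 (by positivity)
    linarith
  have h14 : ∑ l ∈ Finset.Icc 1 N, Dl Pr l ≤ (E / c) * (b ^ 2 * (sc m 0 ^ 2 * ms g)) := by
    rw [div_mul_eq_mul_div, le_div_iff₀ hc]
    linarith
  calc _ ≤ _ := h5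
    _ ≤ 2 * ((E / c) * (b ^ 2 * (sc m 0 ^ 2 * ms g))) := by linarith
    _ = _ := by ring

end Vale.Agent.P076.H7
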