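import Vale.Agent.P076.H926.Defs

/-! # P076, NS.KP: `StENR`, the amplitudes of the last level and the mass on the ball (helper7) -/

set_option autoImplicit false

open MeasureTheory Complex Set Vale.Agent.P122.C2 Vale.Agent.P122.AN Vale.Agent.P076.NS Vale.Agent.P076.H879
open scoped ENNReal NNReal FourierTransform

namespace Vale.Agent.P076.H7

open Vale.Agent.P076.H926

theorem pie_top' (k n : ℕ) (g : Z2 → E3 → ℂ) (θ : Z2) : pie k n g k θ = 𝓕⁻ (g θ) :=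
  funext fun z => pie_top k n g θ z

/-- the tubes of one cap -/
theorem enr_cap (k : ℕ) : ∃ C : ℝ, 0 ≤ C ∧ ∀ (n : ℕ) (θ : Z2), Cap n k θ → ∀ V : Finset Nd,
    (∀ S ∈ V, Rg k n k S ∧ S.τ = θ) → ∀ z : E3, ∑ S ∈ V, wN 9 n k S z ≤
      ENNReal.ofReal C * wg 6 0 (2 ^ (2 * k * n)) (2 ^ (2 * k * n)) (2 ^ (2 * k * n)) 0 z := by
  classical
  have hc : (1:ℝ) ≤ 2 * (1 + 3 * k) := by
    have : (0:ℝ) ≤ k := Nat.cast_nonneg k
    linarith
  obtain ⟨C, hC, H⟩ := Vale.Agent.P122.W840.stWS 6 (2 * (1 + 3 * k)) hc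
  refine ⟨C, hC, fun n θ hθ V hV z => ?_⟩
  set ρ : ℝ := 2 ^ (k * n) with hρ
  set R : ℝ := 2 ^ (2 * k * n) with hR
  have hρ0 : 0 < ρ := by positivity
  have hR0 : 0 < R := by positivity
  have hρR : R = ρ * ρ := by rw [hR, hρ, ← pow_add]; congr 1; ring
  have hρ1 : 1 ≤ ρ := one_le_pow₀ (by norm_num)
  have hle : ρ ≤ R := by rw [hρR]; nlinarith
  have hs : ∀ i, |(0 : Fin 2 → ℝ) i - slp n k θ i| ≤ 1 := fun i => by
    unfold slp
    rw [Pi.zero_apply, zero_sub, abs_neg, abs_of_nonneg (by have := (hθ i).1; positivity),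
      div_le_one (by positivity)]
    exact_mod_cast (hθ i).2.le
  have hf : |fw 0 (fun i => (0 : Fin 2 → ℝ) i - slp n k θ i)| ≤ 2 :=
    (abs_fw_le 0 _).trans (by linarith [hs 0, hs 1])
  have hf' : |fn 0 (fun i => (0 : Fin 2 → ℝ) i - slp n k θ i)| ≤ 2 :=
    (abs_fn_le 0 _).trans (by linarith [hs 0, hs 1])
  have hk2 : (2:ℝ) ≤ 2 * (1 + 3 * k) := by
    have : (0:ℝ) ≤ k := Nat.cast_nonneg k
    linarith
  have key := H ρ R 0 R R 0 (slp n k θ) (V.image Nd.o) 0 0 hρ0 hR0 hle hle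
    (mul_le_mul_of_nonneg_right (hf.trans hk2) hR0.le)
    (mul_le_mul_of_nonneg_right (hf'.trans hk2) hR0.le) (by
      intro o ho
      obtain ⟨S, hS, rfl⟩ := Finset.mem_image.1 ho
      have h2 := (rg_top (hV S hS).1).2
      rw [sub_zero, gau_ball]
      unfold l1
      have e0 : (!₂[ρ * (S.o 0 : ℝ), ρ * (S.o 1 : ℝ), (0:ℝ)] : E3) 0 = ρ * S.o 0 := rfl
      have e1 : (!₂[ρ * (S.o 0 : ℝ), ρ * (S.o 1 : ℝ), (0:ℝ)] : E3) 1 = ρ * S.o 1 := rfl
      have e2 : (!₂[ρ * (S.o 0 : ℝ), ρ * (S.o 1 : ℝ), (0:ℝ)] : E3) 2 = 0 := rfl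
      rw [e0, e1, e2, abs_zero, add_zero, div_le_iff₀ hR0, abs_mul, abs_mul, abs_of_pos hρ0, hρR]
      have h3 := h2 0
      have h4 := h2 1
      have h5 := mul_le_mul_of_nonneg_left h3 hρ0.le
      have h6 := mul_le_mul_of_nonneg_left h4 hρ0.le
      rw [← hρ] at h5 h6
      linarith) z
  rw [sub_zero] at key
  refine le_trans (le_of_eq ?_) key
  rw [Finset.sum_image]
  · refine Finset.sum_congr rfl fun S hS => ?_
    unfold wN bp
    rw [(hV S hS).2, (rg_top (hV S hS).1).1]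
    simp only [Int.cast_zero, mul_zero]
    rfl
  · intro S hS S' hS' h
    ext1
    · rw [(hV S hS).2, (hV S' hS').2]
    · exact h
    · rw [(rg_top (hV S hS).1).1, (rg_top (hV S' hS').1).1]

theorem enr : StENR := by
  classical
  intro k
  obtain ⟨C, hC, H⟩ := enr_cap k
  refine ⟨C, hC, fun n g hg U => ?_⟩
  set V := U.filter (fun S => Rg k n k S ∧ Cap n k S.τ) with hV
  have hVm : ∀ S ∈ V, Rg k n k S ∧ Cap n k S.τ := fun S hS => (Finset.mem_filter.1 hS).2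
  have h1 : ∑ S ∈ U, ENNReal.ofReal (aR k 9 n g k S ^ 2) ≤
      ∑ S ∈ V, am2 9 n k S (𝓕⁻ (g S.τ)) := by
    rw [hV, Finset.sum_filter]
    refine Finset.sum_le_sum fun S _ => ?_
    unfold aR
    split_ifs with h
    · rw [Real.sq_sqrt ENNReal.toReal_nonneg, pie_top']
      have e : ex k 9 k = 9 := by unfold ex; simp
      rw [e]
      exact ENNReal.ofReal_toReal_le
    · simp
  have h2 : ∀ S ∈ V, S.τ ∈ desc k n 0 0 := fun S hS => mem_desc0.2 (hVm S hS).2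
  refine h1.trans ?_
  rw [← Finset.sum_fiberwise_of_maps_to h2]
  have h3 : ENNReal.ofReal (C * ((2:ℝ) ^ (2 * k * n))⁻¹) * msl k n g =
      ∑ θ ∈ desc k n 0 0, ENNReal.ofReal (((2:ℝ) ^ (4 * k * n))⁻¹) * (ENNReal.ofReal C * m1 k n g θ) := by
    unfold msl
    rw [← mul_assoc, Finset.mul_sum]
    refine Finset.sum_congr rfl fun θ _ => ?_
    rw [← mul_assoc, ← ENNReal.ofReal_mul (by positivity), ← ENNReal.ofReal_mul (by positivity)]
    congr 2
    have e : (2:ℝ) ^ (4 * k * n) = 2 ^ (2 * k * n) * 2 ^ (2 * k * n) := by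
      rw [← pow_add]; congr 1; ring
    rw [e, mul_inv]
    ring
  rw [h3]
  refine Finset.sum_le_sum fun θ hθ => ?_
  have hθ' := mem_desc0.1 hθ
  set W := V.filter (fun S => S.τ = θ) with hW
  have hWm : ∀ S ∈ W, Rg k n k S ∧ S.τ = θ := fun S hS =>
    ⟨(hVm S (Finset.mem_filter.1 hS).1).1, (Finset.mem_filter.1 hS).2⟩
  have h4 : ∑ S ∈ W, am2 9 n k S (𝓕⁻ (g S.τ)) =
      ENNReal.ofReal (((2:ℝ) ^ (4 * k * n))⁻¹) * ∫⁻ z, ‖𝓕⁻ (g θ) z‖ₑ ^ 2 * ∑ S ∈ W, wN 9 n k S z := by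
    simp only [Finset.mul_sum]
    rw [lintegral_finsetSum, Finset.mul_sum]
    · refine Finset.sum_congr rfl fun S hS => ?_
      unfold am2
      rw [(hWm S hS).2]
    · intro S _
      have hm : Measurable (𝓕⁻ (g θ)) := by
        have := meas_pie (K := k) (n := n) (g := g) hg k θ
        rwa [pie_top'] at this
      exact ((hm.enorm).pow_const 2).mul (measurable_wN 9 n k S)
  rw [h4]
  refine mul_le_mul_right ?_ _
  unfold m1
  rw [← lintegral_const_mul' _ _ ENNReal.ofReal_ne_top]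
  refine lintegral_mono fun z => ?_
  calc ‖𝓕⁻ (g θ) z‖ₑ ^ 2 * ∑ S ∈ W, wN 9 n k S z
      ≤ ‖𝓕⁻ (g θ) z‖ₑ ^ 2 * (ENNReal.ofReal C *
        wg 6 0 (2 ^ (2 * k * n)) (2 ^ (2 * k * n)) (2 ^ (2 * k * n)) 0 z) :=
        mul_le_mul_right (H n θ hθ' W hWm z) _
    _ = _ := by ring

end Vale.Agent.P076.H7
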