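import Vale.Agent.P076.X.Spec

/-! # P076, X.SUM: measurability and integrability of `uh`, `cf`, `Fq` (helper7) -/

open MeasureTheory

namespace Vale.Agent.P076.H7

open Vale.Agent.P076.X

lemma norm_ex (x : ℝ) : ‖ex x‖ = 1 := by
  unfold ex; rw [Complex.norm_exp_ofReal_mul_I]

lemma continuous_ex : Continuous ex := by unfold ex; fun_prop

lemma good_sub {g h : ℝ → ℂ} (hg : Good g) (hh : Good h) : Good (fun ξ => g ξ - h ξ) :=
  ⟨hg.1.sub hh.1, hg.2.sub hh.2⟩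

lemma memLp_conj {g : ℝ → ℂ} (h : MemLp g 2) : MemLp (fun ξ => (starRingEnd ℂ) (g ξ)) 2 :=
  h.star

lemma int_uh0 {g₁ g₂ : ℝ → ℂ} (h₁ : Good g₁) (h₂ : Good g₂) (a : ℝ) :
    Integrable (fun ξ => g₁ (ξ + a) * (starRingEnd ℂ) (g₂ ξ)) := by
  have e1 : MemLp (fun ξ => g₁ (ξ + a)) 2 :=
    h₁.2.comp_measurePreserving (measurePreserving_add_right volume a)
  exact e1.integrable_mul (memLp_conj h₂.2)

lemma int_uh {g₁ g₂ : ℝ → ℂ} (h₁ : Good g₁) (h₂ : Good g₂) (a t : ℝ) :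
    Integrable (fun ξ => g₁ (ξ + a) * (starRingEnd ℂ) (g₂ ξ) *
      ex (-(t * ((ξ + a) ^ 2 - ξ ^ 2)))) := by
  refine (int_uh0 h₁ h₂ a).mul_bdd (c := 1) ?_ ?_
  · exact (continuous_ex.comp (by fun_prop)).aestronglyMeasurable
  · exact Filter.Eventually.of_forall fun ξ => (norm_ex _).le

lemma uh_diff {g h : ℝ → ℂ} (hg : Good g) (hh : Good h) (a t : ℝ) :
    uh g g a t - uh h h a t =
      uh (fun ξ => g ξ - h ξ) g a t + uh h (fun ξ => g ξ - h ξ) a t := by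
  unfold uh
  rw [← integral_sub (int_uh hg hg a t) (int_uh hh hh a t),
    ← integral_add (int_uh (good_sub hg hh) hg a t) (int_uh hh (good_sub hg hh) a t)]
  refine integral_congr_ae (Filter.Eventually.of_forall fun ξ => ?_)
  simp only [map_sub]
  ring

/-- the bound of `uh` independent of the time -/
noncomputable def Kb (g₁ g₂ : ℝ → ℂ) (a : ℝ) : ℝ := ∫ ξ, ‖g₁ (ξ + a)‖ * ‖g₂ ξ‖

lemma norm_uh_le (g₁ g₂ : ℝ → ℂ) (a t : ℝ) : ‖uh g₁ g₂ a t‖ ≤ Kb g₁ g₂ a := by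
  unfold uh Kb
  refine (norm_integral_le_integral_norm _).trans (le_of_eq ?_)
  refine integral_congr_ae (Filter.Eventually.of_forall fun ξ => ?_)
  simp [norm_ex]

lemma Kb_nonneg (g₁ g₂ : ℝ → ℂ) (a : ℝ) : 0 ≤ Kb g₁ g₂ a :=
  integral_nonneg fun _ => by positivity

lemma ms_nonneg (g : ℝ → ℂ) : 0 ≤ ms g := integral_nonneg fun _ => by positivity

lemma int_sq {g : ℝ → ℂ} (h : Good g) : Integrable (fun ξ => ‖g ξ‖ ^ 2) :=
  h.2.integrable_norm_pow (by norm_num)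

lemma Kb_le {g₁ g₂ : ℝ → ℂ} (h₁ : Good g₁) (h₂ : Good g₂) (a : ℝ) :
    Kb g₁ g₂ a ≤ (ms g₁ + ms g₂) / 2 := by
  have e1 : Integrable (fun ξ => ‖g₁ (ξ + a)‖ ^ 2) := (int_sq h₁).comp_add_right a
  have e2 : ∫ ξ, ‖g₁ (ξ + a)‖ ^ 2 = ms g₁ :=
    integral_add_right_eq_self (fun ξ => ‖g₁ ξ‖ ^ 2) a
  have e3 : ∫ ξ, (‖g₁ (ξ + a)‖ ^ 2 + ‖g₂ ξ‖ ^ 2) / 2 = (ms g₁ + ms g₂) / 2 := by
    rw [integral_div, integral_add e1 (int_sq h₂), e2]; rfl
  rw [← e3]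
  refine integral_mono_of_nonneg (Filter.Eventually.of_forall fun _ => by positivity)
    ((e1.add (int_sq h₂)).div_const 2) (Filter.Eventually.of_forall fun ξ => ?_)
  simp only
  nlinarith [sq_nonneg (‖g₁ (ξ + a)‖ - ‖g₂ ξ‖)]

/-- `Kb` is integrable -/
lemma int_Kb {g₁ g₂ : ℝ → ℂ} (h₁ : Good g₁) (h₂ : Good g₂) : Integrable (Kb g₁ g₂) := by
  have e : Integrable (fun p : ℝ × ℝ => ‖g₁ (p.2 + p.1)‖ * ‖g₂ p.2‖) (volume.prod volume) := by
    have h0 : Integrable (fun p : ℝ × ℝ => ‖g₁ p.1‖ * ‖g₂ p.2‖) (volume.prod volume) :=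
      h₁.1.norm.mul_prod h₂.1.norm
    have hm := (measurePreserving_add_prod (volume : Measure ℝ)
      (volume : Measure ℝ)).integrable_comp_of_integrable h0
    refine hm.congr (Filter.Eventually.of_forall fun p => ?_)
    simp [add_comm]
  exact e.integral_prod_left

/-- measurability of `uh` in both variables -/
lemma uh_meas {g₁ g₂ : ℝ → ℂ} (h₁ : Good g₁) (h₂ : Good g₂) :
    StronglyMeasurable (fun p : ℝ × ℝ => uh g₁ g₂ p.2 p.1) := by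
  obtain ⟨k₁, m₁, e₁⟩ := h₁.1.aestronglyMeasurable
  obtain ⟨k₂, m₂, e₂⟩ := h₂.1.aestronglyMeasurable
  have e : (fun p : ℝ × ℝ => uh g₁ g₂ p.2 p.1) = fun p => uh k₁ k₂ p.2 p.1 := by
    funext p
    unfold uh
    refine integral_congr_ae ?_
    have e₁' : ∀ᵐ ξ, g₁ (ξ + p.2) = k₁ (ξ + p.2) :=
      (measurePreserving_add_right volume p.2).quasiMeasurePreserving.ae e₁
    filter_upwards [e₁', e₂] with ξ h h'
    rw [h, h']
  rw [e]
  unfold uh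
  refine StronglyMeasurable.integral_prod_right (f := fun (p : ℝ × ℝ) (ξ : ℝ) =>
    k₁ (ξ + p.2) * (starRingEnd ℂ) (k₂ ξ) * ex (-(p.1 * ((ξ + p.2) ^ 2 - ξ ^ 2)))) ?_
  refine StronglyMeasurable.mul (StronglyMeasurable.mul ?_ ?_) ?_
  · exact m₁.comp_measurable (by fun_prop)
  · exact Complex.continuous_conj.comp_stronglyMeasurable (m₂.comp_measurable measurable_snd)
  · exact (continuous_ex.comp (by fun_prop)).stronglyMeasurable

lemma int_uh_sq {g₁ g₂ : ℝ → ℂ} (h₁ : Good g₁) (h₂ : Good g₂) (t : ℝ) :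
    Integrable (fun a => ‖uh g₁ g₂ a t‖ ^ 2) := by
  have hK := (int_Kb h₁ h₂).const_mul ((ms g₁ + ms g₂) / 2)
  refine hK.mono' ?_ (Filter.Eventually.of_forall fun a => ?_)
  · exact (((uh_meas h₁ h₂).comp_measurable
      (measurable_prodMk_left (x := t))).norm.pow 2).aestronglyMeasurable
  · rw [Real.norm_of_nonneg (by positivity), sq]
    exact mul_le_mul ((norm_uh_le _ _ _ _).trans (Kb_le h₁ h₂ a)) (norm_uh_le _ _ _ _)
      (norm_nonneg _) (by linarith [ms_nonneg g₁, ms_nonneg g₂])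

/-- a bounded measurable weight -/
structure Wgt (w : ℝ → ℝ) : Prop where
  meas : Measurable w
  nn : ∀ a, 0 ≤ w a
  le : ∀ a, w a ≤ 1

lemma int_w {w : ℝ → ℝ} (hw : Wgt w) {g₁ g₂ : ℝ → ℂ} (h₁ : Good g₁) (h₂ : Good g₂) (t : ℝ) :
    Integrable (fun a => w a * ‖uh g₁ g₂ a t‖ ^ 2) := by
  refine (int_uh_sq h₁ h₂ t).mono' ?_ (Filter.Eventually.of_forall fun a => ?_)
  · exact hw.meas.aestronglyMeasurable.mul (int_uh_sq h₁ h₂ t).1
  · rw [Real.norm_of_nonneg (mul_nonneg (hw.nn a) (by positivity))]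
    exact mul_le_of_le_one_left (by positivity) (hw.le a)

lemma ii_w {w : ℝ → ℝ} (hw : Wgt w) {g₁ g₂ : ℝ → ℂ} (h₁ : Good g₁) (h₂ : Good g₂) (α β : ℝ) :
    IntervalIntegrable (fun t => ∫ a, w a * ‖uh g₁ g₂ a t‖ ^ 2) volume α β := by
  set K : ℝ := ∫ a, (ms g₁ + ms g₂) / 2 * Kb g₁ g₂ a
  have hm : StronglyMeasurable (fun t => ∫ a, w a * ‖uh g₁ g₂ a t‖ ^ 2) := by
    refine StronglyMeasurable.integral_prod_right (f := fun (t a : ℝ) =>
      w a * ‖uh g₁ g₂ a t‖ ^ 2) ?_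
    exact ((hw.meas.comp measurable_snd).stronglyMeasurable).mul ((uh_meas h₁ h₂).norm.pow 2)
  refine (intervalIntegrable_const (c := K)).mono_fun hm.aestronglyMeasurable
    (Filter.Eventually.of_forall fun t => ?_)
  have hn : 0 ≤ ∫ a, w a * ‖uh g₁ g₂ a t‖ ^ 2 :=
    integral_nonneg fun a => mul_nonneg (hw.nn a) (by positivity)
  beta_reduce
  rw [Real.norm_of_nonneg hn]
  refine le_trans ?_ (le_abs_self K)
  refine integral_mono_of_nonneg (Filter.Eventually.of_forall fun a =>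
    mul_nonneg (hw.nn a) (by positivity)) ((int_Kb h₁ h₂).const_mul _)
    (Filter.Eventually.of_forall fun a => ?_)
  simp only
  refine (mul_le_of_le_one_left (by positivity) (hw.le a)).trans ?_
  rw [sq]
  exact mul_le_mul ((norm_uh_le _ _ _ _).trans (Kb_le h₁ h₂ a)) (norm_uh_le _ _ _ _)
      (norm_nonneg _) (by linarith [ms_nonneg g₁, ms_nonneg g₂])


/-! ### coefficients -/

lemma norm_pk_le {s : ℝ} (y η t ξ : ℝ) :
    ‖pk s y η t ξ‖ ≤ (2:ℝ) ^ (1/4 : ℝ) * Real.sqrt s := by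
  unfold pk
  rw [norm_mul, norm_ex, mul_one, Complex.norm_real, Real.norm_of_nonneg (by positivity)]
  refine mul_le_of_le_one_right (by positivity) (Real.exp_le_one_iff.2 ?_)
  have : 0 ≤ Real.pi * s ^ 2 * (ξ - η) ^ 2 := by positivity
  linarith

lemma cont_pk (s : ℝ) : Continuous (fun q : ℝ × ℝ × ℝ × ℝ => pk s q.1 q.2.1 q.2.2.1 q.2.2.2) := by
  unfold pk ex
  fun_prop

lemma int_cf {g : ℝ → ℂ} (h : Good g) (s y η t : ℝ) :
    Integrable (fun ξ => g ξ * (starRingEnd ℂ) (pk s y η t ξ)) := by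
  refine h.1.mul_bdd (c := (2:ℝ) ^ (1/4 : ℝ) * Real.sqrt s) ?_ ?_
  · exact (Complex.continuous_conj.comp ((cont_pk s).comp
      (by fun_prop : Continuous fun ξ : ℝ => (y, η, t, ξ)))).aestronglyMeasurable
  · refine Filter.Eventually.of_forall fun ξ => ?_
    rw [RCLike.norm_conj]
    exact norm_pk_le y η t ξ

lemma cf_sub {g h : ℝ → ℂ} (hg : Good g) (hh : Good h) (s y η t : ℝ) :
    cf s y η t (fun ξ => g ξ - h ξ) = cf s y η t g - cf s y η t h := by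
  unfold cf
  rw [← integral_sub (int_cf hg s y η t) (int_cf hh s y η t)]
  refine integral_congr_ae (Filter.Eventually.of_forall fun ξ => ?_)
  simp only
  ring

lemma cf_cont {g : ℝ → ℂ} (h : Good g) (s : ℝ) :
    Continuous (fun q : ℝ × ℝ × ℝ => cf s q.1 q.2.1 q.2.2 g) := by
  unfold cf
  refine continuous_of_dominated (bound := fun ξ => ‖g ξ‖ * ((2:ℝ) ^ (1/4 : ℝ) * Real.sqrt s))
    (fun q => (int_cf h s _ _ _).1) (fun q => Filter.Eventually.of_forall fun ξ => ?_)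
    (h.1.norm.mul_const _) (Filter.Eventually.of_forall fun ξ => ?_)
  · rw [norm_mul, RCLike.norm_conj]
    exact mul_le_mul_of_nonneg_left (norm_pk_le _ _ _ _) (norm_nonneg _)
  · have e : Continuous fun q : ℝ × ℝ × ℝ => pk s q.1 q.2.1 q.2.2 ξ :=
      (cont_pk s).comp (g := fun q : ℝ × ℝ × ℝ × ℝ => pk s q.1 q.2.1 q.2.2.1 q.2.2.2)
        (f := fun q : ℝ × ℝ × ℝ => (q.1, q.2.1, q.2.2, ξ)) (by fun_prop)
    exact continuous_const.mul (Complex.continuous_conj.comp e)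

lemma cf_cont_t {g : ℝ → ℂ} (h : Good g) (s t : ℝ) :
    Continuous (fun p : ℝ × ℝ => cf s p.1 p.2 t g) :=
  (cf_cont h s).comp (g := fun q : ℝ × ℝ × ℝ => cf s q.1 q.2.1 q.2.2 g)
    (f := fun p : ℝ × ℝ => (p.1, p.2, t)) (by fun_prop)

lemma cf_cont_3 {g : ℝ → ℂ} (h : Good g) (s : ℝ) :
    Continuous (fun q : ℝ × ℝ × ℝ => cf s q.2.1 q.2.2 q.1 g) :=
  (cf_cont h s).comp (g := fun q : ℝ × ℝ × ℝ => cf s q.1 q.2.1 q.2.2 g)
    (f := fun q : ℝ × ℝ × ℝ => (q.2.1, q.2.2, q.1)) (by fun_prop)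

lemma int_cf_sq (hR : StRep) {s : ℝ} (hs : 0 < s) (t : ℝ) {g : ℝ → ℂ} (h : Good g) :
    Integrable (fun p : ℝ × ℝ => ‖cf s p.1 p.2 t g‖ ^ 2) ∧
    ∫ p : ℝ × ℝ, ‖cf s p.1 p.2 t g‖ ^ 2 = ms g := by
  obtain ⟨e1, e2⟩ := hR s hs t g g h h
  have e : ∀ z : ℂ, z * (starRingEnd ℂ) z = ((‖z‖ ^ 2 : ℝ) : ℂ) := fun z => by
    rw [Complex.mul_conj, Complex.normSq_eq_norm_sq]
  simp only [e] at e1 e2
  refine ⟨e1.re, ?_⟩
  rw [integral_complex_ofReal, integral_complex_ofReal] at e2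
  exact_mod_cast e2

/-- amplitude bound at one scale for all times near `t₀` -/
def Amp (s t : ℝ) (g : ℝ → ℂ) (M : ℝ) : Prop := ∀ y η, ‖cf s y η t g‖ ≤ M

lemma int_Fq (hR : StRep) {s : ℝ} (hs : 0 < s) (t : ℝ) {g₁ g₂ : ℝ → ℂ} (h₁ : Good g₁)
    (h₂ : Good g₂) {M : ℝ} (hM : Amp s t g₂ M) :
    Integrable (fun p : ℝ × ℝ => ‖cf s p.1 p.2 t g₁‖ ^ 2 * ‖cf s p.1 p.2 t g₂‖ ^ 2) := by
  refine ((int_cf_sq hR hs t h₁).1.mul_const (M ^ 2)).mono' ?_
    (Filter.Eventually.of_forall fun p => ?_)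
  · exact (((cf_cont_t h₁ s t).norm.pow 2).mul
      ((cf_cont_t h₂ s t).norm.pow 2)).aestronglyMeasurable
  · rw [Real.norm_of_nonneg (by positivity)]
    exact mul_le_mul_of_nonneg_left (pow_le_pow_left₀ (norm_nonneg _) (hM _ _) 2) (by positivity)

lemma Fq_nonneg {s : ℝ} (hs : 0 < s) (t : ℝ) (g₁ g₂ : ℝ → ℂ) : 0 ≤ Fq s t g₁ g₂ := by
  unfold Fq
  exact mul_nonneg (inv_nonneg.2 hs.le) (integral_nonneg fun _ => by positivity)

lemma Fq_le (hR : StRep) {s : ℝ} (hs : 0 < s) (t : ℝ) {g₁ g₂ : ℝ → ℂ} (h₁ : Good g₁)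
    {M : ℝ} (hM : Amp s t g₂ M) :
    Fq s t g₁ g₂ ≤ s⁻¹ * (ms g₁ * M ^ 2) := by
  unfold Fq
  refine mul_le_mul_of_nonneg_left ?_ (inv_nonneg.2 hs.le)
  rw [← (int_cf_sq hR hs t h₁).2, ← integral_mul_const]
  refine integral_mono_of_nonneg (Filter.Eventually.of_forall fun _ => by positivity)
    ((int_cf_sq hR hs t h₁).1.mul_const _) (Filter.Eventually.of_forall fun p => ?_)
  exact mul_le_mul_of_nonneg_left (pow_le_pow_left₀ (norm_nonneg _) (hM _ _) 2) (by positivity)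

lemma Fq_comm (s t : ℝ) (g₁ g₂ : ℝ → ℂ) : Fq s t g₁ g₂ = Fq s t g₂ g₁ := by
  unfold Fq
  simp only [mul_comm]

lemma amp_triv {g : ℝ → ℂ} (h : Good g) (s t : ℝ) :
    Amp s t g ((∫ ξ, ‖g ξ‖) * ((2:ℝ) ^ (1/4 : ℝ) * Real.sqrt s)) := by
  intro y η
  unfold cf
  refine (norm_integral_le_integral_norm _).trans ?_
  rw [← integral_mul_const]
  refine integral_mono_of_nonneg (Filter.Eventually.of_forall fun _ => by positivity)
    (h.1.norm.mul_const _) (Filter.Eventually.of_forall fun ξ => ?_)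
  simp only
  rw [norm_mul, RCLike.norm_conj]
  exact mul_le_mul_of_nonneg_left (norm_pk_le _ _ _ _) (norm_nonneg _)

lemma ii_Fq (hR : StRep) {s : ℝ} (hs : 0 < s) {g₁ g₂ : ℝ → ℂ} (h₁ : Good g₁) (h₂ : Good g₂)
    (α β : ℝ) : IntervalIntegrable (fun t => Fq s t g₁ g₂) volume α β := by
  set K : ℝ := s⁻¹ * (ms g₁ * ((∫ ξ, ‖g₂ ξ‖) * ((2:ℝ) ^ (1/4 : ℝ) * Real.sqrt s)) ^ 2)
  have hm : StronglyMeasurable (fun t => Fq s t g₁ g₂) := by
    unfold Fq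
    refine StronglyMeasurable.const_mul ?_ _
    refine StronglyMeasurable.integral_prod_right (f := fun (t : ℝ) (p : ℝ × ℝ) =>
      ‖cf s p.1 p.2 t g₁‖ ^ 2 * ‖cf s p.1 p.2 t g₂‖ ^ 2) ?_
    exact (((cf_cont_3 h₁ s).norm.pow 2).mul ((cf_cont_3 h₂ s).norm.pow 2)).stronglyMeasurable
  refine (intervalIntegrable_const (c := K)).mono_fun hm.aestronglyMeasurable
    (Filter.Eventually.of_forall fun t => ?_)
  beta_reduce
  rw [Real.norm_of_nonneg (Fq_nonneg hs t g₁ g₂)]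
  exact (Fq_le hR hs t h₁ (amp_triv h₂ s t)).trans (le_abs_self K)

end Vale.Agent.P076.H7
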